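import Vale.Agent.P227.Weighted

/-!
The logarithmic Brunn–Minkowski inequality for pairs with `n - 2` common reflections.
-/

namespace Vale.Agent.Results.P227.ReflectionsMinusTwo

open Matrix MeasureTheory Vale.Agent.P227

theorem result :
    ∀ (n : ℕ) (K L : Set (Fin n → ℝ)),
      Convex ℝ K → IsCompact K → (interior K).Nonempty → (∀ x ∈ K, -x ∈ K) →
      Convex ℝ L → IsCompact L → (interior L).Nonempty → (∀ x ∈ L, -x ∈ L) →
      (∃ M : Matrix (Fin n) (Fin n) ℝ, M.det ≠ 0 ∧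
        ∀ i : Fin n, 2 ≤ i.val →
          (∀ y ∈ (fun x => M *ᵥ x) '' K,
            Function.update y i (-y i) ∈ (fun x => M *ᵥ x) '' K) ∧
          ∀ y ∈ (fun x => M *ᵥ x) '' L,
            Function.update y i (-y i) ∈ (fun x => M *ᵥ x) '' L) →
      ∀ t : ℝ, 0 ≤ t → t ≤ 1 →
        (volume K).toReal ^ (1 - t) * (volume L).toReal ^ t ≤
          (volume {x : Fin n → ℝ | ∀ u : Fin n → ℝ,
            u ⬝ᵥ x ≤ sSup ((fun y => u ⬝ᵥ y) '' K) ^ (1 - t) *
              sSup ((fun y => u ⬝ᵥ y) '' L) ^ t}).toReal := by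
  intro n K L cK kK iK sK cL kL iL sL hM t ht0 ht1
  obtain ⟨M, hdet, hflip⟩ := hM
  have bK : Body K := ⟨kK, cK, sK, iK.mono interior_subset⟩
  have bL : Body L := ⟨kL, cL, sL, iL.mono interior_subset⟩
  exact weighted_linear bK bL
    (bK.mem_nhds (ne_of_gt (Measure.measure_pos_of_nonempty_interior volume iK)))
    (bL.mem_nhds (ne_of_gt (Measure.measure_pos_of_nonempty_interior volume iL)))
    M hdet (fun i hi => (hflip i hi).1) (fun i hi => (hflip i hi).2) ⟨ht0, ht1⟩

end Vale.Agent.Results.P227.ReflectionsMinusTwo
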