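import Vale.Agent.P227.Zonoid.LogMink

/-!
The logarithmic Brunn–Minkowski inequality whenever the logarithmic combination is a zonoid, and
the logarithmic Minkowski inequality whenever the reference body is a zonoid, in every dimension.
The cone-volume probability measure of `W` is written as the image of normalized Lebesgue measure
on `W` under the derivative of the gauge of `W`.

By induction on projections each projection along a generator of an approximating zonotope
dominates the geometric mean of the projections of the bodies. The first Minkowski inequality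
against the zonotope with tilted lengths and Hölder's inequality then give the volumes. The
logarithmic Minkowski inequality follows on letting the weight of `L` tend to zero.
-/

namespace Vale.Agent.Results.P227.Zonoids

open Matrix MeasureTheory Vale.Agent.P227

theorem result :
    (∀ (n : ℕ) (K L : Set (Fin n → ℝ)),
      Convex ℝ K → IsCompact K → (interior K).Nonempty → (∀ x ∈ K, -x ∈ K) →
      Convex ℝ L → IsCompact L → (interior L).Nonempty → (∀ x ∈ L, -x ∈ L) →
      ∀ t : ℝ, 0 ≤ t → t ≤ 1 →
        (∃ μ : Measure (Fin n → ℝ), IsFiniteMeasure μ ∧ Integrable (fun a => a) μ ∧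
          ∀ v : Fin n → ℝ,
            sSup ((fun y => v ⬝ᵥ y) '' {x : Fin n → ℝ | ∀ u : Fin n → ℝ,
              u ⬝ᵥ x ≤ sSup ((fun y => u ⬝ᵥ y) '' K) ^ (1 - t) *
                sSup ((fun y => u ⬝ᵥ y) '' L) ^ t}) = ∫ a, |v ⬝ᵥ a| ∂μ) →
        (volume K).toReal ^ (1 - t) * (volume L).toReal ^ t ≤
          (volume {x : Fin n → ℝ | ∀ u : Fin n → ℝ,
            u ⬝ᵥ x ≤ sSup ((fun y => u ⬝ᵥ y) '' K) ^ (1 - t) *
              sSup ((fun y => u ⬝ᵥ y) '' L) ^ t}).toReal) ∧
    (∀ (n : ℕ) (W L : Set (Fin n → ℝ)),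
      Convex ℝ W → IsCompact W → (interior W).Nonempty → (∀ x ∈ W, -x ∈ W) →
      Convex ℝ L → IsCompact L → (interior L).Nonempty → (∀ x ∈ L, -x ∈ L) →
      (∃ μ : Measure (Fin n → ℝ), IsFiniteMeasure μ ∧ Integrable (fun a => a) μ ∧
        ∀ v : Fin n → ℝ, sSup ((fun y => v ⬝ᵥ y) '' W) = ∫ a, |v ⬝ᵥ a| ∂μ) →
      Real.log ((volume L).toReal / (volume W).toReal) ≤
        n * ⨍ x in W, Real.log (sSup (fderiv ℝ (gauge W) x '' L))) := by
  constructor
  swap
  · intro n W L cW kW iW sW cL kL iL sL hμ
    obtain ⟨μ, hfin, hint, hrep⟩ := hμ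
    have bW : Body W := ⟨kW, cW, sW, iW.mono interior_subset⟩
    have bL : Body L := ⟨kL, cL, sL, iL.mono interior_subset⟩
    have hW0 := bW.mem_nhds (ne_of_gt (Measure.measure_pos_of_nonempty_interior volume iW))
    have hL0 := bL.mem_nhds (ne_of_gt (Measure.measure_pos_of_nonempty_interior volume iL))
    rcases eq_or_ne n 0 with rfl | hn
    · show Real.log (Zonoid.vol L / Zonoid.vol W) ≤ _
      simp [Zonoid.vol_dim_zero bW.ne, Zonoid.vol_dim_zero bL.ne]
    have e : ∀ x, sSup (fderiv ℝ (gauge W) x '' L) = supp L (Zonoid.normal W x) := fun x => by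
      simp only [supp, Zonoid.normal_dot]
    simp only [e]
    exact Zonoid.log_minkowski hn bW hW0 bL hL0 hint hrep
  intro n K L cK kK iK sK cL kL iL sL t ht0 ht1 hμ
  obtain ⟨μ, hfin, hint, hrep⟩ := hμ
  have bK : Body K := ⟨kK, cK, sK, iK.mono interior_subset⟩
  have bL : Body L := ⟨kL, cL, sL, iL.mono interior_subset⟩
  have hK0 := bK.mem_nhds (ne_of_gt (Measure.measure_pos_of_nonempty_interior volume iK))
  have hL0 := bL.mem_nhds (ne_of_gt (Measure.measure_pos_of_nonempty_interior volume iL))
  have hW := body_logC bK bL (l := t) ⟨ht0, ht1⟩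
  show _ ≤ Zonoid.vol (logC K L t)
  rcases ht0.eq_or_lt with rfl | h0
  · have hsub : K ⊆ logC K L 0 := fun x hx u => by simpa using bK.le_supp hx u
    simpa [Zonoid.vol] using Zonoid.vol_mono hW.comp hsub
  rcases ht1.eq_or_lt with rfl | h1
  · have hsub : L ⊆ logC K L 1 := fun x hx u => by simpa using bL.le_supp hx u
    simpa [Zonoid.vol] using Zonoid.vol_mono hW.comp hsub
  exact Zonoid.zonoid_ineq bK bL hK0 hL0 h0 h1 hint hrep

end Vale.Agent.Results.P227.Zonoids
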